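import Vale.Agent.P058.Shift

/-!
The exact two-block link for the kite `(±1,0), (p,±q)`, `p = √2 - 1`.
-/

open scoped RealInnerProductSpace

namespace Vale.Agent.P058

/-- `p = √2 - 1`. -/
noncomputable def kp : ℝ := Real.sqrt 2 - 1

/-- `q = √(1 - p²)`. -/
noncomputable def kq : ℝ := Real.sqrt (1 - kp ^ 2)

/-- Abscissae of the kite. -/
noncomputable def kx : Fin 4 → ℝ := ![1, -1, kp, kp]

/-- Ordinates of the kite, in units of `q`. -/
def ky : Fin 4 → ℝ := ![0, 0, 1, -1]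

/-- Squared distances of the kite. -/
noncomputable def kD (i j : Fin 4) : ℝ := (kx i - kx j) ^ 2 + kq ^ 2 * (ky i - ky j) ^ 2

theorem kp_pos : 0 < kp := by
  have : (1 : ℝ) < Real.sqrt 2 := Real.lt_sqrt_of_sq_lt (by norm_num)
  unfold kp; linarith

theorem kp_lt_one : kp < 1 := by
  have : Real.sqrt 2 < 2 := by rw [Real.sqrt_lt' (by norm_num)]; norm_num
  unfold kp; linarith

theorem kq_sq : kq ^ 2 = 1 - kp ^ 2 :=
  Real.sq_sqrt (by nlinarith [kp_pos, kp_lt_one])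

theorem kq_pos : 0 < kq := Real.sqrt_pos.mpr (by nlinarith [kp_pos, kp_lt_one])

theorem kite_identity {E : Type*} [NormedAddCommGroup E] [InnerProductSpace ℝ E]
    (p q : ℝ) (hq : q ^ 2 = 1 - p ^ 2) (V W B0 B1 B2 B3 : E)
    (h0 : ‖B0‖ ^ 2 = ‖V‖ ^ 2) (h1 : ‖B1‖ ^ 2 = ‖V‖ ^ 2) (h2 : ‖B2‖ ^ 2 = ‖V + W‖ ^ 2)
    (h3 : ‖B3‖ ^ 2 = ‖V - W‖ ^ 2) (hsum : B2 + B3 = (1 + p) • B0 + (1 - p) • B1)
    (i j : Fin 4) :
    let A : Fin 4 → E := ![V, V, V + W, V - W]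
    let B : Fin 4 → E := ![B0, B1, B2, B3]
    let σ : Fin 4 → Fin 4 := ![0, 1, 3, 2]
    let x : Fin 4 → ℝ := ![1, -1, p, p]
    ‖A i - A j‖ ^ 2 + ‖A (σ i) - A (σ j)‖ ^ 2 = 2 * ‖W‖ ^ 2 * (ky i - ky j) ^ 2 ∧
    ‖B i - B j‖ ^ 2 + ‖B (σ i) - B (σ j)‖ ^ 2 = 2 * ‖W‖ ^ 2 * (ky i - ky j) ^ 2 +
      ‖B0 - B1‖ ^ 2 / 2 * ((x i - x j) ^ 2 + q ^ 2 * (ky i - ky j) ^ 2) := by
  have hB3 : B3 = (1 + p) • B0 + (1 - p) • B1 - B2 := eq_sub_of_add_eq' hsum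
  have hA3 : ‖V - W‖ ^ 2 = ‖V‖ ^ 2 - 2 * ⟪V, W⟫ + ‖W‖ ^ 2 := norm_sub_sq_real V W
  have hA2 : ‖V + W‖ ^ 2 = ‖V‖ ^ 2 + 2 * ⟪V, W⟫ + ‖W‖ ^ 2 := norm_add_sq_real V W
  have hVV : ‖(V + W) - (V - W)‖ ^ 2 = 4 * ‖W‖ ^ 2 := by
    have : (V + W) - (V - W) = (2 : ℝ) • W := by module
    rw [this, norm_smul, mul_pow]; norm_num
  have hneg : ‖(V - W) - (V + W)‖ ^ 2 = 4 * ‖W‖ ^ 2 := by rw [norm_sub_rev]; exact hVV
  have e01 : ‖B0 - B1‖ ^ 2 = 2 * ‖V‖ ^ 2 - 2 * ⟪B0, B1⟫ := by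
    rw [norm_sub_sq_real, h0, h1]; ring
  have e02 : ‖B0 - B2‖ ^ 2 = ‖V‖ ^ 2 + ‖V + W‖ ^ 2 - 2 * ⟪B0, B2⟫ := by
    rw [norm_sub_sq_real, h0, h2]; ring
  have e12 : ‖B1 - B2‖ ^ 2 = ‖V‖ ^ 2 + ‖V + W‖ ^ 2 - 2 * ⟪B1, B2⟫ := by
    rw [norm_sub_sq_real, h1, h2]; ring
  have e03 : ‖B0 - B3‖ ^ 2 = ‖V‖ ^ 2 + ‖V - W‖ ^ 2
      - 2 * ((1 + p) * ‖V‖ ^ 2 + (1 - p) * ⟪B0, B1⟫ - ⟪B0, B2⟫) := by
    rw [norm_sub_sq_real, h0, h3, hB3, inner_sub_right, inner_add_right, inner_smul_right,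
      inner_smul_right, real_inner_self_eq_norm_sq, h0]
    ring
  have e13 : ‖B1 - B3‖ ^ 2 = ‖V‖ ^ 2 + ‖V - W‖ ^ 2
      - 2 * ((1 + p) * ⟪B0, B1⟫ + (1 - p) * ‖V‖ ^ 2 - ⟪B1, B2⟫) := by
    rw [norm_sub_sq_real, h1, h3, hB3, inner_sub_right, inner_add_right, inner_smul_right,
      inner_smul_right, real_inner_self_eq_norm_sq, h1, real_inner_comm B0 B1]
    ring
  have e23 : ‖B2 - B3‖ ^ 2 = ‖V + W‖ ^ 2 + ‖V - W‖ ^ 2
      - 2 * ((1 + p) * ⟪B0, B2⟫ + (1 - p) * ⟪B1, B2⟫ - ‖V + W‖ ^ 2) := by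
    rw [norm_sub_sq_real, h2, h3, hB3, inner_sub_right, inner_add_right, inner_smul_right,
      inner_smul_right, real_inner_self_eq_norm_sq, h2, real_inner_comm B0 B2,
      real_inner_comm B1 B2]
    ring
  have hrel : ‖V - W‖ ^ 2 = (1 + p) ^ 2 * ‖V‖ ^ 2 + (1 - p) ^ 2 * ‖V‖ ^ 2
      + 2 * (1 + p) * (1 - p) * ⟪B0, B1⟫ + ‖V + W‖ ^ 2
      - 2 * ((1 + p) * ⟪B0, B2⟫ + (1 - p) * ⟪B1, B2⟫) := by
    rw [← h3, hB3, norm_sub_sq_real, norm_add_sq_real, inner_add_left, inner_smul_left,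
      inner_smul_left, inner_smul_left, inner_smul_right, norm_smul, norm_smul, mul_pow, mul_pow,
      h0, h1, h2, Real.norm_eq_abs, Real.norm_eq_abs, sq_abs, sq_abs]
    simp only [RCLike.conj_to_real]
    ring
  intro A B σ x
  fin_cases i <;> fin_cases j <;>
    simp only [A, B, σ, x, ky, Fin.mk_zero, Fin.mk_one, Fin.reduceFinMk, Matrix.cons_val,
      Matrix.cons_val_zero, Matrix.cons_val_one, sub_self, norm_zero, add_sub_cancel_left,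
      sub_add_cancel_left, sub_sub_cancel, sub_sub_cancel_left, norm_neg,
      norm_sub_rev B1 B0, norm_sub_rev B2 B0, norm_sub_rev B3 B0, norm_sub_rev B2 B1,
      norm_sub_rev B3 B1, norm_sub_rev B3 B2, hVV, hneg, hq, e01, e02, e03, e12, e13, e23] <;>
    constructor <;> linarith

theorem vec_add (M : ℕ) (f g : ℕ → ℝ) : vec M (f + g) = vec M f + vec M g := rfl

theorem vec_sub (M : ℕ) (f g : ℕ → ℝ) : vec M (f - g) = vec M f - vec M g := rfl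

theorem vec_smul (M : ℕ) (a : ℝ) (f : ℕ → ℝ) : vec M (a • f) = a • vec M f := rfl

theorem norm_vec_sq (M : ℕ) (f : ℕ → ℝ) : ‖vec M f‖ ^ 2 = ∑ s ∈ Finset.range M, f s ^ 2 := by
  rw [EuclideanSpace.real_norm_sq_eq, Finset.sum_range]
  rfl

theorem sh_add (d : ℕ) (f g : ℕ → ℝ) : sh d (f + g) = sh d f + sh d g := by
  funext s; simp only [sh, Pi.add_apply]; split_ifs <;> simp

theorem sh_sub (d : ℕ) (f g : ℕ → ℝ) : sh d (f - g) = sh d f - sh d g := by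
  funext s; simp only [sh, Pi.sub_apply]; split_ifs <;> simp

theorem sh_smul (d : ℕ) (a : ℝ) (f : ℕ → ℝ) : sh d (a • f) = a • sh d f := by
  funext s; simp only [sh, Pi.smul_apply]; split_ifs <;> simp

theorem sh_zero (f : ℕ → ℝ) : sh 0 f = f := by
  funext s; simp [sh]

theorem sh_sh (d e : ℕ) (f : ℕ → ℝ) : sh d (sh e f) = sh (d + e) f := by
  funext s
  simp only [sh]
  by_cases h : d + e ≤ s
  · rw [if_pos (by omega), if_pos (by omega), if_pos h, Nat.sub_sub]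
  · rw [if_neg h]
    by_cases h' : d ≤ s
    · rw [if_pos h', if_neg (by omega)]
    · rw [if_neg h']

theorem norm_vec_sh (M L d : ℕ) (f : ℕ → ℝ) (hf : ∀ k, L ≤ k → f k = 0) (hd : d + L ≤ M) :
    ‖vec M (sh d f)‖ ^ 2 = ‖vec M f‖ ^ 2 := by
  rw [norm_vec_sq, norm_vec_sq]
  obtain ⟨K, rfl⟩ : ∃ K, M = d + K := ⟨M - d, by omega⟩
  rw [Finset.sum_range_add]
  have h1 : ∑ s ∈ Finset.range d, sh d f s ^ 2 = 0 := Finset.sum_eq_zero fun s hs => by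
    have : ¬ d ≤ s := by simpa using Finset.mem_range.mp hs
    simp [sh, this]
  rw [h1, zero_add]
  refine Eq.trans (Finset.sum_congr rfl fun k _ => by simp [sh]) (Finset.sum_subset ?_ ?_)
  · intro k hk
    simp only [Finset.mem_range] at hk ⊢
    omega
  · intro k _ hk
    simp only [Finset.mem_range, not_lt] at hk
    rw [hf k (by omega)]
    simp

/-- The difference `sh d3 H - sh d2 H`: the common core of the four sequences. -/
def coreV (d2 d3 : ℕ) (H : ℕ → ℝ) : ℕ → ℝ := sh d3 H - sh d2 H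

/-- The small deviation of the third and fourth sequence from the common core. -/
noncomputable def devW (d1 d2 d3 : ℕ) (H : ℕ → ℝ) : ℕ → ℝ :=
  sh d2 H + sh d3 H - (1 + kp) • H - (1 - kp) • sh d1 H

theorem link_of_sequence (d1 d2 d3 Dm LH : ℕ) (hd1 : d1 ≤ Dm) (hd2 : d2 ≤ Dm) (hd3 : d3 ≤ Dm)
    (H : ℕ → ℝ) (hH : ∀ k, LH ≤ k → H k = 0) (M : ℕ) (hM : Dm + Dm + LH ≤ M)
    (hE : 0 < ‖vec M (coreV d2 d3 H - sh d1 (coreV d2 d3 H))‖ ^ 2) :
    Flex (fun (b : Bool) (i j : Fin 4) =>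
      (4 * ‖vec M (devW d1 d2 d3 H)‖ ^ 2 /
        (kq ^ 2 * ‖vec M (coreV d2 d3 H - sh d1 (coreV d2 d3 H))‖ ^ 2)
        + if b then 1 else 0) * kD i j) := by
  set V := coreV d2 d3 H with hV
  set W := devW d1 d2 d3 H with hW
  have hshH : ∀ d, d ≤ Dm → ∀ k, Dm + LH ≤ k → sh d H k = 0 := by
    intro d hd k hk
    simp only [sh]
    split_ifs
    · exact hH _ (by omega)
    · rfl
  have hVs : ∀ k, Dm + LH ≤ k → V k = 0 := by
    intro k hk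
    simp [hV, coreV, hshH d2 hd2 k hk, hshH d3 hd3 k hk]
  have hWs : ∀ k, Dm + LH ≤ k → W k = 0 := by
    intro k hk
    simp [hW, devW, hshH d1 hd1 k hk, hshH d2 hd2 k hk, hshH d3 hd3 k hk, hH k (by omega)]
  set v : Fin 4 → ℕ → ℝ := ![V, V, V + W, V - W] with hv
  have hvs : ∀ i k, Dm + LH ≤ k → v i k = 0 := by
    intro i k hk
    fin_cases i <;> simp [hv, hVs k hk, hWs k hk]
  set dd : Fin 4 → ℕ := ![0, d1, d2, d3] with hdd
  have hdle : ∀ i, dd i ≤ Dm := by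
    intro i
    fin_cases i <;> simp [hdd, hd1, hd2, hd3]
  have blk := shift_flex (I := Fin 4) (β := Bool) (Dm + LH) M v hvs
    (fun b i => cond b (dd i) 0)
    (fun b i => by have := hdle i; cases b <;> simp only [cond_true, cond_false] <;> omega)
  set σ : Fin 4 → Fin 4 := ![0, 1, 3, 2]
  have two := blk.add (blk.comap σ id)
  set w2 : ℝ := ‖vec M W‖ ^ 2 with hw2
  set e2 : ℝ := ‖vec M (V - sh d1 V)‖ ^ 2 with he2
  have hpad : Flex (fun (_ : Bool) (i j : Fin 4) => 2 * w2 / kq ^ 2 * (kx i - kx j) ^ 2) := by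
    have h := (Flex.static (β := Bool) (n := 1)
      (fun i : Fin 4 => EuclideanSpace.single (0 : Fin 1) (kx i))).smul
      (s := 2 * w2 / kq ^ 2) (by positivity)
    refine h.congr fun b i j => ?_
    simp [Real.dist_eq, sq_abs]
  refine (((two.add hpad)).smul (s := 2 / e2) (by positivity)).congr ?_
  have hq0 : kq ≠ 0 := kq_pos.ne'
  have he0 : e2 ≠ 0 := hE.ne'
  have hsum : vec M (sh d2 (V + W)) + vec M (sh d3 (V - W))
      = (1 + kp) • vec M (sh 0 V) + (1 - kp) • vec M (sh d1 V) := by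
    rw [← vec_add, ← vec_smul, ← vec_smul, ← vec_add]
    congr 1
    simp only [hV, hW, coreV, devW, sh_add, sh_sub, sh_smul, sh_sh, Nat.zero_add, Nat.add_comm d3 d2,
      Nat.add_comm d1 d2, Nat.add_comm d1 d3]
    module
  have hn : ∀ d f, d ≤ Dm → (∀ k, Dm + LH ≤ k → f k = 0) →
      ‖vec M (sh d f)‖ ^ 2 = ‖vec M f‖ ^ 2 := fun d f hd hf =>
    norm_vec_sh M (Dm + LH) d f hf (by omega)
  have key := kite_identity (E := EuclideanSpace ℝ (Fin M)) kp kq kq_sq (vec M V) (vec M W)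
    (vec M (sh 0 V)) (vec M (sh d1 V)) (vec M (sh d2 (V + W))) (vec M (sh d3 (V - W)))
    (hn 0 V (Nat.zero_le _) hVs) (hn d1 V hd1 hVs)
    (by rw [← vec_add]; exact hn d2 _ hd2 (fun k hk => by simp [hVs k hk, hWs k hk]))
    (by rw [← vec_sub]; exact hn d3 _ hd3 (fun k hk => by simp [hVs k hk, hWs k hk]))
    hsum
  rw [sh_zero, ← vec_sub M V (sh d1 V), ← hw2, ← he2] at key
  have hA : ∀ i, (![vec M V, vec M V, vec M V + vec M W, vec M V - vec M W] : Fin 4 → _) i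
      = vec M (v i) := by
    intro i
    fin_cases i <;> simp [hv, vec_add, vec_sub]
  have hB : ∀ i, (![vec M V, vec M (sh d1 V), vec M (sh d2 (V + W)), vec M (sh d3 (V - W))] :
      Fin 4 → _) i = vec M (sh (dd i) (v i)) := by
    intro i
    fin_cases i <;> simp [hv, hdd, sh_zero]
  intro b i j
  obtain ⟨kA, kB⟩ := key i j
  simp only [hA, hB, ← dist_eq_norm] at kA kB
  have hkD : kD i j = (kx i - kx j) ^ 2 + kq ^ 2 * (ky i - ky j) ^ 2 := rfl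
  cases b
  · simp only [Bool.false_eq_true, cond_false, if_false, sh_zero, id_eq, add_zero]
    rw [kA, hkD]
    field_simp
    ring
  · simp only [if_true, cond_true, id_eq]
    rw [kB, hkD]
    rw [show (![1, -1, kp, kp] : Fin 4 → ℝ) = kx from rfl]
    field_simp
    ring

end Vale.Agent.P058
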