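import Mathlib

/-!
Ramsey sets and subtransitive sets.
-/

namespace Vale.Agent.P058

/-- A finite set `A ⊆ ℝ^d` is Ramsey: for every number `r ≥ 2` of colours there is `D ≥ 1` such
that every colouring of `ℝ^D` has a monochromatic congruent copy of `A`. -/
def IsRamsey {d : ℕ} (A : Finset (EuclideanSpace ℝ (Fin d))) : Prop :=
  ∀ r : ℕ, 2 ≤ r → ∃ D : ℕ, 1 ≤ D ∧ ∀ c : EuclideanSpace ℝ (Fin D) → Fin r,
    ∃ f : EuclideanSpace ℝ (Fin d) → EuclideanSpace ℝ (Fin D),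
      (∀ x ∈ A, ∀ y ∈ A, dist (f x) (f y) = dist x y) ∧ ∃ k : Fin r, ∀ x ∈ A, c (f x) = k

/-- A finite set `X ⊆ ℝ^m` is transitive: the isometries of `ℝ^m` that map `X` onto itself act
transitively on `X`. -/
def IsTransitive {m : ℕ} (X : Finset (EuclideanSpace ℝ (Fin m))) : Prop :=
  ∀ x ∈ X, ∀ y ∈ X, ∃ g : EuclideanSpace ℝ (Fin m) ≃ᵢ EuclideanSpace ℝ (Fin m),
    g '' (X : Set (EuclideanSpace ℝ (Fin m))) = X ∧ g x = y

/-- A finite set `A ⊆ ℝ^d` is subtransitive: it is congruent to a subset of a finite transitive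
set in some `ℝ^m`. -/
def IsSubtransitive {d : ℕ} (A : Finset (EuclideanSpace ℝ (Fin d))) : Prop :=
  ∃ (m : ℕ) (X : Finset (EuclideanSpace ℝ (Fin m))), IsTransitive X ∧
    ∃ f : EuclideanSpace ℝ (Fin d) → EuclideanSpace ℝ (Fin m),
      (∀ x ∈ A, f x ∈ X) ∧ ∀ x ∈ A, ∀ y ∈ A, dist (f x) (f y) = dist x y

end Vale.Agent.P058
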