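import Mathlib

/-!
Flexible families: finitely many candidate placements of a labelled family of configurations
such that every finite colouring has a placement in which the colour of a point depends only
on its label, and not on the configuration it belongs to.
-/

namespace Vale.Agent.P058

/-- `Flex D`: for every finite colour type there are finitely many placements `ψ` of points
indexed by `β × I` in a Euclidean space, each `ψ b` having squared distances `D b`, such that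
every colouring admits a placement with colour independent of `b`. -/
def Flex {I β : Type} (D : β → I → I → ℝ) : Prop :=
  ∀ (K : Type) [Fintype K], ∃ (n : ℕ) (Ψ : Finset (β → I → EuclideanSpace ℝ (Fin n))),
    (∀ ψ ∈ Ψ, ∀ b i j, dist (ψ b i) (ψ b j) ^ 2 = D b i j) ∧
    ∀ c : EuclideanSpace ℝ (Fin n) → K, ∃ ψ ∈ Ψ, ∀ b b' i, c (ψ b i) = c (ψ b' i)

theorem Flex.congr {I β : Type} {D D' : β → I → I → ℝ} (h : Flex D)
    (hD : ∀ b i j, D b i j = D' b i j) : Flex D' := by
  intro K _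
  obtain ⟨n, Ψ, hΨ, hc⟩ := h K
  exact ⟨n, Ψ, fun ψ hψ b i j => by rw [hΨ ψ hψ b i j, hD], hc⟩

theorem Flex.comap {I β I' β' : Type} {D : β → I → I → ℝ} (h : Flex D) (f : I' → I)
    (g : β' → β) : Flex (fun b i j => D (g b) (f i) (f j)) := by
  classical
  intro K _
  obtain ⟨n, Ψ, hΨ, hc⟩ := h K
  refine ⟨n, Ψ.image (fun ψ b i => ψ (g b) (f i)), ?_, ?_⟩
  · intro ψ hψ b i j
    obtain ⟨φ, hφ, rfl⟩ := Finset.mem_image.mp hψ
    exact hΨ φ hφ _ _ _
  · intro c
    obtain ⟨φ, hφ, hcol⟩ := hc c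
    exact ⟨_, Finset.mem_image_of_mem _ hφ, fun b b' i => hcol _ _ _⟩

theorem Flex.smul {I β : Type} {D : β → I → I → ℝ} (h : Flex D) {s : ℝ} (hs : 0 ≤ s) :
    Flex (fun b i j => s * D b i j) := by
  classical
  intro K _
  obtain ⟨n, Ψ, hΨ, hc⟩ := h K
  refine ⟨n, Ψ.image (fun ψ b i => Real.sqrt s • ψ b i), ?_, ?_⟩
  · intro ψ hψ b i j
    obtain ⟨φ, hφ, rfl⟩ := Finset.mem_image.mp hψ
    rw [dist_smul₀, mul_pow, Real.norm_eq_abs, sq_abs, Real.sq_sqrt hs, hΨ φ hφ]
  · intro c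
    obtain ⟨φ, hφ, hcol⟩ := hc (fun x => c (Real.sqrt s • x))
    exact ⟨_, Finset.mem_image_of_mem _ hφ, fun b b' i => hcol _ _ _⟩

theorem Flex.static {I β : Type} {n : ℕ} (P : I → EuclideanSpace ℝ (Fin n)) :
    Flex (fun (_ : β) i j => dist (P i) (P j) ^ 2) := by
  intro K _
  refine ⟨n, {fun _ i => P i}, ?_, fun c => ⟨_, Finset.mem_singleton_self _, fun _ _ _ => rfl⟩⟩
  intro ψ hψ b i j
  rw [Finset.mem_singleton.mp hψ]

/-- The point of `R^(n1+n2)` with the given two orthogonal components. -/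
noncomputable def glue {n1 n2 : ℕ} (x : EuclideanSpace ℝ (Fin n1))
    (y : EuclideanSpace ℝ (Fin n2)) : EuclideanSpace ℝ (Fin (n1 + n2)) :=
  WithLp.toLp 2 (Fin.append (fun i => x i) (fun i => y i))

theorem dist_glue {n1 n2 : ℕ} (x x' : EuclideanSpace ℝ (Fin n1))
    (y y' : EuclideanSpace ℝ (Fin n2)) :
    dist (glue x y) (glue x' y') ^ 2 = dist x x' ^ 2 + dist y y' ^ 2 := by
  simp only [EuclideanSpace.dist_sq_eq, glue, Fin.sum_univ_add, Fin.append_left, Fin.append_right]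

theorem Flex.prod {I1 β1 I2 β2 : Type} [Fintype I1] [Fintype β1] [Fintype I2] [Fintype β2]
    {D1 : β1 → I1 → I1 → ℝ} {D2 : β2 → I2 → I2 → ℝ}
    (h1 : Flex D1) (h2 : Flex D2) :
    Flex (fun (b : β1 × β2) (i j : I1 × I2) => D1 b.1 i.1 j.1 + D2 b.2 i.2 j.2) := by
  classical
  intro K _
  -- The second family is chosen for colour vectors over the labels of the first one, after
  -- the first family was chosen for colour vectors over all candidates of the second one.
  obtain ⟨n2, Ψ2, hΨ2, hc2⟩ := h2 (β1 × I1 → K)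
  obtain ⟨n1, Ψ1, hΨ1, hc1⟩ := h1 (Ψ2 × β2 × I2 → K)
  refine ⟨n1 + n2,
    (Ψ1 ×ˢ Ψ2).image (fun p b i => glue (p.1 b.1 i.1) (p.2 b.2 i.2)), ?_, ?_⟩
  · intro ψ hψ b i j
    obtain ⟨p, hp, rfl⟩ := Finset.mem_image.mp hψ
    obtain ⟨hp1, hp2⟩ := Finset.mem_product.mp hp
    rw [dist_glue, hΨ1 _ hp1, hΨ2 _ hp2]
  · intro c
    obtain ⟨ψ1, hψ1, hcol1⟩ := hc1 (fun x q => c (glue x ((q.1 : β2 → I2 → _) q.2.1 q.2.2)))
    obtain ⟨ψ2, hψ2, hcol2⟩ := hc2 (fun y q => c (glue (ψ1 q.1 q.2) y))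
    refine ⟨_, Finset.mem_image_of_mem _ ((Finset.mem_product (p := (ψ1, ψ2))).mpr ⟨hψ1, hψ2⟩), ?_⟩
    intro b b' i
    have e1 := congrFun (hcol1 b.1 b'.1 i.1) (⟨ψ2, hψ2⟩, b.2, i.2)
    have e2 := congrFun (hcol2 b.2 b'.2 i.2) (b'.1, i.1)
    exact e1.trans e2

theorem Flex.add {I β : Type} [Fintype I] [Fintype β] {D1 D2 : β → I → I → ℝ}
    (h1 : Flex D1) (h2 : Flex D2) : Flex (fun b i j => D1 b i j + D2 b i j) :=
  (h1.prod h2).comap (fun i => (i, i)) (fun b => (b, b))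

theorem Flex.piFin {I β : Type} [Fintype I] [Fintype β] :
    ∀ {n : ℕ} (D : Fin n → β → I → I → ℝ), (∀ t, Flex (D t)) →
      Flex (fun (b : Fin n → β) (i j : Fin n → I) => ∑ t, D t (b t) (i t) (j t)) := by
  intro n
  induction n with
  | zero =>
    intro D _
    exact (Flex.static (n := 1) (fun _ : Fin 0 → I => 0)).congr (by simp)
  | succ n ih =>
    intro D hD
    refine (((hD 0).prod (ih (fun t => D t.succ) (fun t => hD t.succ))).comap
      (fun i : Fin (n + 1) → I => (i 0, fun t => i t.succ))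
      (fun b : Fin (n + 1) → β => (b 0, fun t => b t.succ))).congr ?_
    intro b i j
    rw [Fin.sum_univ_succ]

theorem Flex.pi {κ I β : Type} [Fintype κ] [Fintype I] [Fintype β]
    (D : κ → β → I → I → ℝ) (hD : ∀ t, Flex (D t)) :
    Flex (fun (b : κ → β) (i j : κ → I) => ∑ t, D t (b t) (i t) (j t)) := by
  classical
  let e := (Fintype.equivFin κ).symm
  refine ((Flex.piFin (fun t => D (e t)) (fun t => hD (e t))).comap
    (fun i : κ → I => fun t => i (e t)) (fun b : κ → β => fun t => b (e t))).congr ?_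
  intro b i j
  exact Equiv.sum_comp e (fun t => D t (b t) (i t) (j t))

end Vale.Agent.P058
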