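import Mathlib

/-!
Finite Ramsey theorem for colourings of k-element sets of naturals.
-/

namespace Vale.Agent.P058

theorem hyper_ramsey {K : Type} [Fintype K] [Nonempty K] :
    ∀ (k m : ℕ), ∃ n : ℕ, ∀ (f : Finset ℕ → K) (S : Finset ℕ), n ≤ S.card →
      ∃ T ⊆ S, T.card = m ∧ ∃ col : K, ∀ A ⊆ T, A.card = k → f A = col := by
  classical
  intro k
  induction k with
  | zero =>
    intro m
    refine ⟨m, fun f S hS => ?_⟩
    obtain ⟨T, hT, hTm⟩ := Finset.exists_subset_card_eq hS
    refine ⟨T, hT, hTm, f ∅, fun A _ hA => ?_⟩
    rw [Finset.card_eq_zero.mp hA]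
  | succ k ih =>
    have aux : ∀ m, ∃ n : ℕ, ∀ (f : Finset ℕ → K) (S : Finset ℕ), n ≤ S.card →
        ∃ T ⊆ S, T.card = m ∧ ∃ g : ℕ → K, ∀ A ⊆ T, A.card = k + 1 →
          ∀ h : A.Nonempty, f A = g (A.min' h) := by
      intro m
      induction m with
      | zero =>
        refine ⟨0, fun f S _ => ⟨∅, Finset.empty_subset _, rfl, fun _ => f ∅, ?_⟩⟩
        intro A hA _ h
        exact absurd (Finset.subset_empty.mp hA) h.ne_empty
      | succ m ihm =>
        obtain ⟨n1, hn1⟩ := ihm
        obtain ⟨n2, hn2⟩ := ih n1
        refine ⟨n2 + 1, fun f S hS => ?_⟩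
        have hne : S.Nonempty := Finset.card_pos.mp (by omega)
        set x := S.min' hne with hxdef
        have hx : x ∈ S := Finset.min'_mem S hne
        obtain ⟨T', hT'S, hT'c, col, hcol⟩ := hn2 (fun A => f (insert x A)) (S.erase x)
          (by rw [Finset.card_erase_of_mem hx]; omega)
        obtain ⟨T, hTT', hTc, g, hg⟩ := hn1 f T' (le_of_eq hT'c.symm)
        have hxT : x ∉ T := fun h => (Finset.mem_erase.mp (hT'S (hTT' h))).1 rfl
        refine ⟨insert x T, ?_, by rw [Finset.card_insert_of_notMem hxT, hTc],
          Function.update g x col, ?_⟩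
        · refine Finset.insert_subset hx ?_
          exact fun y hy => Finset.mem_of_mem_erase (hT'S (hTT' hy))
        intro A hA hAc h
        by_cases hxA : x ∈ A
        · have hmin : A.min' h = x := by
            refine le_antisymm (Finset.min'_le A x hxA) ?_
            refine Finset.le_min' _ _ _ (fun y hy => ?_)
            rcases Finset.mem_insert.mp (hA hy) with rfl | hyT
            · exact le_rfl
            · exact Finset.min'_le S y (Finset.mem_of_mem_erase (hT'S (hTT' hyT)))
          rw [hmin, Function.update_self]
          have hsub : A.erase x ⊆ T' := by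
            intro y hy
            obtain ⟨hne', hyA⟩ := Finset.mem_erase.mp hy
            rcases Finset.mem_insert.mp (hA hyA) with rfl | hyT
            · exact absurd rfl hne'
            · exact hTT' hyT
          have := hcol (A.erase x) hsub (by rw [Finset.card_erase_of_mem hxA]; omega)
          simpa [Finset.insert_erase hxA] using this
        · have hAT : A ⊆ T := by
            intro y hy
            rcases Finset.mem_insert.mp (hA hy) with rfl | hyT
            · exact absurd hy hxA
            · exact hyT
          have hne' : A.min' h ≠ x := fun he => hxA (he ▸ A.min'_mem h)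
          rw [Function.update_of_ne hne']
          exact hg A hAT hAc h
    intro m
    obtain ⟨n, hn⟩ := aux (Fintype.card K * m)
    refine ⟨n, fun f S hS => ?_⟩
    obtain ⟨T, hTS, hTc, g, hg⟩ := hn f S hS
    obtain ⟨col, _, hcol⟩ := Finset.exists_le_card_fiber_of_mul_le_card_of_maps_to
      (s := T) (t := (Finset.univ : Finset K)) (f := g) (fun _ _ => Finset.mem_univ _)
      Finset.univ_nonempty (n := m) (by rw [Finset.card_univ, hTc])
    obtain ⟨T', hT', hT'c⟩ := Finset.exists_subset_card_eq hcol
    refine ⟨T', hT'.trans ((Finset.filter_subset _ _).trans hTS), hT'c, col, ?_⟩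
    intro A hA hAc
    have h : A.Nonempty := Finset.card_pos.mp (by omega)
    rw [hg A ((hA.trans hT').trans (Finset.filter_subset _ _)) hAc h]
    exact (Finset.mem_filter.mp ((hA.trans hT') (A.min'_mem h))).2

end Vale.Agent.P058
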