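import Vale.Agent.P058.Trig
import Vale.Agent.P058.Defs

/-!
The kite is Ramsey.
-/

namespace Vale.Agent.P058

/-- The vertices of the kite. -/
noncomputable def kite (i : Fin 4) : EuclideanSpace ℝ (Fin 2) :=
  WithLp.toLp 2 ![kx i, kq * ky i]

theorem dist_kite (i j : Fin 4) : dist (kite i) (kite j) ^ 2 = kD i j := by
  rw [EuclideanSpace.dist_sq_eq, Fin.sum_univ_two]
  simp [kite, kD, Real.dist_eq, sq_abs]
  ring

/-- The weight of the part number `k`. -/
noncomputable def wt (k : ℕ) : ℝ := 1 / ((k : ℝ) + 1) - 1 / ((k : ℝ) + 2)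

theorem wt_nonneg (k : ℕ) : 0 ≤ wt k :=
  sub_nonneg.mpr (one_div_le_one_div_of_le (by positivity) (by linarith))

theorem sum_wt (n j : ℕ) :
    ∑ k ∈ Finset.range n, (if j ≤ k then wt k else 0)
      = if j ≤ n then 1 / ((j : ℝ) + 1) - 1 / ((n : ℝ) + 1) else 0 := by
  induction n with
  | zero =>
    simp only [Finset.range_zero, Finset.sum_empty]
    split_ifs with h
    · simp [Nat.le_zero.mp h]
    · rfl
  | succ n ih =>
    rw [Finset.sum_range_succ, ih]
    by_cases h : j ≤ n
    · rw [if_pos h, if_pos h, if_pos (h.trans n.le_succ), wt]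
      push_cast
      ring
    · rw [if_neg h, if_neg h]
      split_ifs with h'
      · obtain rfl : j = n + 1 := le_antisymm h' (by omega)
        push_cast
        ring
      · ring

/-- One coordinate: the kite at all the scales `1/(b+1)`, `b < n`, with colour independent
of the scale. -/
theorem flex_levels (n : ℕ) :
    Flex (fun (b : Fin n) (i j : Fin 4) => 1 / (((b : ℕ) : ℝ) + 1) * kD i j) := by
  obtain ⟨c, hc0, hc, hlink⟩ := link_small (1 / ((n : ℝ) + 1)) (by positivity)
  have hparts := (Flex.pi (κ := Fin n)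
    (fun k b i j => wt k * ((c + if b then 1 else 0) * kD i j))
    (fun k => hlink.smul (wt_nonneg k))).comap
    (fun (i : Fin 4) (_ : Fin n) => i) (fun (b : Fin n) (k : Fin n) => decide (b ≤ k))
  have hW : ∑ k : Fin n, wt k = 1 - 1 / ((n : ℝ) + 1) := by
    rw [← Finset.sum_range (fun k => wt k)]
    simpa using sum_wt n 0
  have hS : 0 ≤ 1 / ((n : ℝ) + 1) - c * ∑ k : Fin n, wt k := by
    rw [hW]
    have h1 : 0 < 1 / ((n : ℝ) + 1) := by positivity
    have h2 := mul_nonneg hc0 h1.le
    linarith [mul_sub c 1 (1 / ((n : ℝ) + 1))]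
  refine (hparts.add ((Flex.static (β := Fin n) kite).smul hS)).congr ?_
  intro b i j
  have hb : ∑ k : Fin n, (if decide (b ≤ k) = true then wt k else 0)
      = 1 / (((b : ℕ) : ℝ) + 1) - 1 / ((n : ℝ) + 1) := by
    have := sum_wt n b
    rw [if_pos b.2.le, Finset.sum_range (fun k => if (b : ℕ) ≤ k then wt k else 0)] at this
    simp only [decide_eq_true_eq, Fin.le_def]
    exact this
  have hsplit : ∀ k : Fin n, wt k * ((c + if decide (b ≤ k) = true then 1 else 0) * kD i j)
      = (c * wt k + if decide (b ≤ k) = true then wt k else 0) * kD i j := by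
    intro k
    split_ifs <;> ring
  simp only [hsplit, ← Finset.sum_mul, Finset.sum_add_distrib, ← Finset.mul_sum, hb, dist_kite]
  ring

theorem kite_ramsey : IsRamsey (Finset.univ.image kite) := by
  classical
  intro r hr
  obtain ⟨ι, _, hHJ⟩ := Combinatorics.Line.exists_mono_in_high_dimension (Fin 4) (Fin r)
  have hι : 0 < Fintype.card ι := by
    obtain ⟨l, -⟩ := hHJ (fun _ => ⟨0, by omega⟩)
    obtain ⟨t, -⟩ := l.proper
    exact Fintype.card_pos_iff.mpr ⟨t⟩
  obtain ⟨N, Ψ, hΨ, hflex⟩ :=
    Flex.pi (κ := ι) (fun _ => _) (fun _ => flex_levels (Fintype.card ι)) (Fin r)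
  refine ⟨max 1 N, le_max_left _ _, fun c => ?_⟩
  set emb : EuclideanSpace ℝ (Fin N) → EuclideanSpace ℝ (Fin (max 1 N)) :=
    fun x => WithLp.toLp 2 (Function.extend (Fin.castLE (le_max_right 1 N)) (fun k => x k) 0)
    with hemb
  have hembd : ∀ x y, dist (emb x) (emb y) = dist x y := by
    intro x y
    rw [EuclideanSpace.dist_eq, EuclideanSpace.dist_eq]
    congr 1
    refine (Fintype.sum_of_injective _ (Fin.castLE_injective (le_max_right 1 N)) _ _ ?_ ?_).symm
    · intro z hz
      have hz' : ¬ ∃ a, Fin.castLE (le_max_right 1 N) a = z := fun ⟨a, ha⟩ => hz ⟨a, ha⟩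
      simp [hemb, Function.extend_apply' _ _ _ hz']
    · intro k
      simp [hemb, (Fin.castLE_injective (le_max_right 1 N)).extend_apply]
  obtain ⟨ψ, hψ, hcol⟩ := hflex (fun x => c (emb x))
  obtain ⟨l, k, hk⟩ := hHJ (fun w => c (emb (ψ (fun _ => ⟨0, hι⟩) w)))
  set S : Finset ι := Finset.univ.filter (fun t => l.idxFun t = none) with hS
  have hS0 : 0 < S.card := by
    obtain ⟨t, ht⟩ := l.proper
    exact Finset.card_pos.mpr ⟨t, by simp [hS, ht]⟩
  have hSle : S.card ≤ Fintype.card ι := Finset.card_le_univ _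
  set b : ι → Fin (Fintype.card ι) := fun _ => ⟨S.card - 1, by omega⟩ with hb
  refine ⟨fun x => emb (ψ b (l (Function.invFun kite x))), ?_, k, ?_⟩
  · intro x hx y hy
    obtain ⟨i, -, rfl⟩ := Finset.mem_image.mp hx
    obtain ⟨j, -, rfl⟩ := Finset.mem_image.mp hy
    set i' := Function.invFun kite (kite i)
    set j' := Function.invFun kite (kite j)
    have hi : kite i' = kite i := Function.invFun_eq ⟨i, rfl⟩
    have hj : kite j' = kite j := Function.invFun_eq ⟨j, rfl⟩
    rw [hembd, show dist (kite i) (kite j) = dist (kite i') (kite j') by rw [hi, hj],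
      ← sq_eq_sq₀ dist_nonneg dist_nonneg, hΨ ψ hψ, dist_kite]
    show ∑ t, 1 / (((b t : Fin _) : ℕ) + 1 : ℝ) * kD (l i' t) (l j' t) = _
    have hterm : ∀ t, 1 / (((b t : Fin _) : ℕ) + 1 : ℝ) * kD (l i' t) (l j' t)
        = if t ∈ S then 1 / (S.card : ℝ) * kD i' j' else 0 := by
      intro t
      have hcast : (((S.card - 1 : ℕ) : ℝ) + 1) = S.card := by
        rw [Nat.cast_sub hS0]
        simp
      by_cases ht : l.idxFun t = none
      · rw [if_pos (by simp [hS, ht]), Combinatorics.Line.apply_none _ _ _ ht,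
          Combinatorics.Line.apply_none _ _ _ ht]
        simp only [hb]
        rw [hcast]
      · rw [if_neg (by simp [hS, ht])]
        obtain ⟨a, ha⟩ := Option.ne_none_iff_exists'.mp ht
        rw [Combinatorics.Line.apply_some ha, Combinatorics.Line.apply_some ha]
        simp [kD]
    rw [Finset.sum_congr rfl (fun t _ => hterm t), Finset.sum_ite_mem, Finset.univ_inter,
      Finset.sum_const, nsmul_eq_mul]
    field_simp
  · intro x hx
    obtain ⟨i, -, rfl⟩ := Finset.mem_image.mp hx
    exact (hcol b (fun _ => ⟨0, hι⟩) _).trans (hk _)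

end Vale.Agent.P058
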