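import Vale.Agent.P058.KiteRamsey

/-!
The kite is not subtransitive.
-/

open scoped RealInnerProductSpace

namespace Vale.Agent.P058

/-- An additive map semilinear for the conjugation of `ℚ(√2)` and nonzero at `1`. -/
theorem exists_conj_map : ∃ φ : ℝ →+ ℝ,
    (∀ t, φ (Real.sqrt 2 * t) = -Real.sqrt 2 * φ t) ∧ φ 1 ≠ 0 := by
  have hnot : (1 : ℝ) ∉ Submodule.span ℚ ({Real.sqrt 2} : Set ℝ) := by
    intro h
    obtain ⟨q, hq⟩ := Submodule.mem_span_singleton.mp h
    rw [Rat.smul_def] at hq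
    have hirr := irrational_sqrt_two
    refine hirr ⟨q⁻¹, ?_⟩
    push_cast
    exact inv_eq_of_mul_eq_one_right hq
  obtain ⟨f, hf1, hf⟩ := Submodule.exists_dual_map_eq_bot_of_notMem hnot inferInstance
  have hf2 : f (Real.sqrt 2) = 0 := by
    have : f (Real.sqrt 2) ∈ (Submodule.span ℚ ({Real.sqrt 2} : Set ℝ)).map f :=
      Submodule.mem_map_of_mem (Submodule.mem_span_singleton_self _)
    rw [hf] at this
    exact this
  have hs : Real.sqrt 2 * Real.sqrt 2 = 2 := Real.mul_self_sqrt (by norm_num)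
  refine ⟨AddMonoidHom.mk' (fun t => (f t : ℝ) - (f (Real.sqrt 2 * t) : ℝ) / Real.sqrt 2) ?_,
    ?_, ?_⟩
  · intro s t
    rw [mul_add, map_add, map_add]
    push_cast
    ring
  · intro t
    simp only [AddMonoidHom.mk'_apply]
    have h2 : f (Real.sqrt 2 * (Real.sqrt 2 * t)) = f t + f t := by
      rw [← mul_assoc, hs, two_mul, map_add]
    rw [h2]
    push_cast
    field_simp
    linear_combination (f t : ℝ) * hs
  · simp [hf2, hf1]

theorem sum_perm_sq {α : Type*} [MetricSpace α] [DecidableEq α] (X : Finset α) (g : α ≃ᵢ α)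
    (hg : g '' (X : Set α) = X) (F : α → ℝ) : ∑ y ∈ X, F (g.symm y) = ∑ y ∈ X, F y := by
  have h1 : ∀ y ∈ X, g.symm y ∈ X := by
    intro y hy
    have : y ∈ g '' (X : Set α) := by rw [hg]; exact hy
    obtain ⟨z, hz, rfl⟩ := this
    simpa using hz
  have h2 : ∀ y ∈ X, g y ∈ X := by
    intro y hy
    have : g y ∈ (X : Set α) := hg ▸ Set.mem_image_of_mem g (Finset.mem_coe.mpr hy)
    exact this
  exact Finset.sum_nbij' (fun y => g.symm y) (fun y => g y) h1 h2 (by simp) (by simp) (by simp)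

theorem kite_not_subtransitive : ¬ IsSubtransitive (Finset.univ.image kite) := by
  classical
  rintro ⟨m, X, hX, f, hfX, hfd⟩
  set x : Fin 4 → EuclideanSpace ℝ (Fin m) := fun i => f (kite i) with hx
  have hmem : ∀ i, x i ∈ X := fun i => hfX _ (Finset.mem_image_of_mem _ (Finset.mem_univ i))
  have hd : ∀ i j, ‖x i - x j‖ ^ 2 = kD i j := by
    intro i j
    rw [← dist_eq_norm, hfd _ (Finset.mem_image_of_mem _ (Finset.mem_univ i))
      _ (Finset.mem_image_of_mem _ (Finset.mem_univ j)), dist_kite]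
  have hq := kq_sq
  have d02 : ‖x 0 - x 2‖ ^ 2 = 2 * (1 - kp) := by
    rw [hd]; simp [kD, kx, ky]; linarith
  have d12 : ‖x 1 - x 2‖ ^ 2 = 2 * (1 + kp) := by
    rw [hd]; simp [kD, kx, ky]; linarith
  have d32 : ‖x 3 - x 2‖ ^ 2 = 4 * (1 - kp ^ 2) := by
    rw [hd]; simp [kD, kx, ky]; linarith
  have d01 : ‖(x 0 - x 2) - (x 1 - x 2)‖ ^ 2 = 4 := by
    rw [sub_sub_sub_cancel_right, hd]; simp [kD, kx, ky]; norm_num
  have d03 : ‖(x 0 - x 2) - (x 3 - x 2)‖ ^ 2 = 2 * (1 - kp) := by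
    rw [sub_sub_sub_cancel_right, hd]; simp [kD, kx, ky]; linarith
  have d13 : ‖(x 1 - x 2) - (x 3 - x 2)‖ ^ 2 = 2 * (1 + kp) := by
    rw [sub_sub_sub_cancel_right, hd]; simp [kD, kx, ky]; linarith
  set u := x 0 - x 2 with hu
  set v := x 1 - x 2 with hv
  set w := x 3 - x 2 with hw
  rw [norm_sub_sq_real] at d01 d03 d13
  have hvec : (1 + kp) • u + (1 - kp) • v - w = 0 := by
    rw [← norm_eq_zero, ← sq_eq_zero_iff, norm_sub_sq_real, norm_add_sq_real, inner_add_left,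
      real_inner_smul_left, real_inner_smul_left, real_inner_smul_left, real_inner_smul_right,
      norm_smul, norm_smul, mul_pow, mul_pow, Real.norm_eq_abs, Real.norm_eq_abs, sq_abs, sq_abs,
      d02, d12, d32]
    have i1 : ⟪u, v⟫ = (2 * (1 - kp) + 2 * (1 + kp) - 4) / 2 := by linarith
    have i2 : ⟪u, w⟫ = (4 * (1 - kp ^ 2)) / 2 := by linarith
    have i3 : ⟪v, w⟫ = (4 * (1 - kp ^ 2)) / 2 := by linarith
    rw [i1, i2, i3]
    ring
  have hrel : ∀ y, (1 + kp) * dist (x 0) y ^ 2 + (1 - kp) * dist (x 1) y ^ 2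
      - dist (x 2) y ^ 2 - dist (x 3) y ^ 2 = 0 := by
    intro y
    have e : ∀ i, dist (x i) y ^ 2
        = ‖x i - x 2‖ ^ 2 - 2 * ⟪x i - x 2, y - x 2⟫ + ‖y - x 2‖ ^ 2 := by
      intro i
      rw [dist_eq_norm, ← sub_sub_sub_cancel_right (x i) y (x 2), norm_sub_sq_real]
    rw [e 0, e 1, e 2, e 3, ← hu, ← hv, ← hw, sub_self, d02, d12, d32, inner_zero_left, norm_zero]
    have h0 : (1 + kp) * ⟪u, y - x 2⟫ + (1 - kp) * ⟪v, y - x 2⟫ - ⟪w, y - x 2⟫ = 0 := by
      rw [← real_inner_smul_left, ← real_inner_smul_left, ← inner_add_left, ← inner_sub_left,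
        hvec, inner_zero_left]
    linear_combination -2 * h0
  obtain ⟨φ, hφ, hφ1⟩ := exists_conj_map
  set W : Fin 4 → EuclideanSpace ℝ (Fin m) → ℝ := fun i y => φ (dist (x i) y ^ 2) with hW
  set s := Real.sqrt 2 with hs
  have hkp : kp = s - 1 := rfl
  have hs0 : 0 < s := Real.sqrt_pos.mpr (by norm_num)
  have hlin : ∀ y, (2 + s) * W 1 y = s * W 0 y + W 2 y + W 3 y := by
    intro y
    have h := congrArg φ (hrel y)
    rw [map_sub, map_sub, map_add, map_zero, hkp, add_sub_cancel, hφ,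
      show (1 - (s - 1)) * dist (x 1) y ^ 2
        = dist (x 1) y ^ 2 + dist (x 1) y ^ 2 - s * dist (x 1) y ^ 2 by ring,
      map_sub, map_add, hφ] at h
    simp only [hW]
    linarith
  have hN : ∀ i, ∑ y ∈ X, W i y ^ 2 = ∑ y ∈ X, W 0 y ^ 2 := by
    intro i
    obtain ⟨g, hg, hgx⟩ := hX (x 0) (hmem 0) (x i) (hmem i)
    rw [← sum_perm_sq X g hg (fun y => W 0 y ^ 2)]
    refine Finset.sum_congr rfl fun y _ => ?_
    simp only [hW]
    rw [← hgx]
    congr 3
    conv_lhs => rw [← g.apply_symm_apply y]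
    exact g.dist_eq _ _
  have hzero : ∑ y ∈ X, (s * (W 0 y - W 2 y) ^ 2 + s * (W 0 y - W 3 y) ^ 2
      + (W 2 y - W 3 y) ^ 2) = 0 := by
    have hid : ∀ y ∈ X, s * (W 0 y - W 2 y) ^ 2 + s * (W 0 y - W 3 y) ^ 2
        + (W 2 y - W 3 y) ^ 2 = (2 + s) * s * W 0 y ^ 2 + (2 + s) * W 2 y ^ 2
          + (2 + s) * W 3 y ^ 2 - (2 + s) ^ 2 * W 1 y ^ 2 := by
      intro y _
      have h := congrArg (fun t => t ^ 2) (hlin y)
      simp only [mul_pow] at h
      rw [h]
      ring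
    rw [Finset.sum_congr rfl hid, Finset.sum_sub_distrib, Finset.sum_add_distrib,
      Finset.sum_add_distrib, ← Finset.mul_sum, ← Finset.mul_sum, ← Finset.mul_sum,
      ← Finset.mul_sum, hN 1, hN 2, hN 3]
    ring
  have h0 := (Finset.sum_eq_zero_iff_of_nonneg (fun y _ => by positivity)).mp hzero (x 0) (hmem 0)
  have a1 := mul_nonneg hs0.le (sq_nonneg (W 0 (x 0) - W 2 (x 0)))
  have a2 := mul_nonneg hs0.le (sq_nonneg (W 0 (x 0) - W 3 (x 0)))
  have a3 := sq_nonneg (W 2 (x 0) - W 3 (x 0))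
  have e2 : W 0 (x 0) = W 2 (x 0) := by
    have : s * (W 0 (x 0) - W 2 (x 0)) ^ 2 = 0 := by linarith
    simpa [hs0.ne', sub_eq_zero] using this
  have e3 : W 0 (x 0) = W 3 (x 0) := by
    have : s * (W 0 (x 0) - W 3 (x 0)) ^ 2 = 0 := by linarith
    simpa [hs0.ne', sub_eq_zero] using this
  have hW0 : W 0 (x 0) = 0 := by simp [hW]
  have hl := hlin (x 0)
  rw [← e2, ← e3, hW0] at hl
  have hW1 : W 1 (x 0) = 0 := by
    have : (2 + s) * W 1 (x 0) = 0 := by linarith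
    exact (mul_eq_zero.mp this).resolve_left (by positivity)
  simp only [hW] at hW1
  rw [dist_eq_norm, hd, show kD 1 0 = 1 + 1 + 1 + 1 by simp [kD, kx, ky]; norm_num,
    map_add, map_add, map_add] at hW1
  exact hφ1 (by linarith)

end Vale.Agent.P058
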