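import Vale.Agent.P058.Flex
import Vale.Agent.P058.Hyper

/-!
A finite sequence may be moved by any shift without changing its colour: the flexible family
coming from Ramsey's theorem for L-element sets.
-/

namespace Vale.Agent.P058

/-- Shift of a sequence by `d` to the right. -/
def sh (d : ℕ) (f : ℕ → ℝ) : ℕ → ℝ := fun s => if d ≤ s then f (s - d) else 0

/-- The first `M` terms of a sequence, as a vector. -/
noncomputable def vec (M : ℕ) (f : ℕ → ℝ) : EuclideanSpace ℝ (Fin M) :=
  WithLp.toLp 2 (fun s => f s)

theorem shift_flex {I β : Type} [Fintype I] (L M : ℕ) (v : I → ℕ → ℝ)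
    (hv : ∀ i k, L ≤ k → v i k = 0) (d : β → I → ℕ) (hd : ∀ b i, d b i + L ≤ M) :
    Flex (fun b i j => dist (vec M (sh (d b i) (v i))) (vec M (sh (d b j) (v j))) ^ 2) := by
  classical
  intro K _
  obtain hK | hK := isEmpty_or_nonempty K
  · refine ⟨0, ∅, by simp, fun c => (hK.false (c 0)).elim⟩
  obtain ⟨N, hN⟩ := hyper_ramsey (K := I → K) L M
  let place : (Fin M → Fin N) → (ℕ → ℝ) → EuclideanSpace ℝ (Fin N) :=
    fun e f => WithLp.toLp 2 (Function.extend e (fun s => f s) 0)
  refine ⟨N, (Finset.univ.filter (fun e : Fin M → Fin N => StrictMono e)).image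
    (fun e b i => place e (sh (d b i) (v i))), ?_, ?_⟩
  · intro ψ hψ b i j
    obtain ⟨e, he, rfl⟩ := Finset.mem_image.mp hψ
    have hinj : Function.Injective e := (Finset.mem_filter.mp he).2.injective
    simp only [EuclideanSpace.dist_sq_eq, place, vec]
    refine (Fintype.sum_of_injective e hinj _ _ ?_ ?_).symm
    · intro x hx
      have hx' : ¬ ∃ a, e a = x := fun ⟨a, ha⟩ => hx ⟨a, ha⟩
      simp [Function.extend_apply' _ _ _ hx']
    · intro s
      simp [hinj.extend_apply]
  · intro c
    let pt : Finset ℕ → I → EuclideanSpace ℝ (Fin N) := fun A i => WithLp.toLp 2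
      (fun x => if (x : ℕ) ∈ A then v i (A.filter (fun y => y < (x : ℕ))).card else 0)
    obtain ⟨T, hTS, hTc, col, hcol⟩ := hN (fun A i => c (pt A i)) (Finset.range N)
      (by simp)
    let et := T.orderEmbOfFin hTc
    have het : ∀ s, et s < N := fun s =>
      Finset.mem_range.mp (hTS (T.orderEmbOfFin_mem hTc s))
    let e : Fin M → Fin N := fun s => ⟨et s, het s⟩
    have he : StrictMono e := fun s t hst => by
      show et s < et t
      exact et.strictMono hst
    refine ⟨_, Finset.mem_image_of_mem _
      (Finset.mem_filter.mpr ⟨Finset.mem_univ _, he⟩), ?_⟩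
    suffices key : ∀ b i, c (place e (sh (d b i) (v i))) = col i by
      intro b b' i
      rw [key b i, key b' i]
    intro b i
    have hb : ∀ k : Fin L, d b i + (k : ℕ) < M := fun k => by
      have := hd b i
      omega
    let g : Fin L → ℕ := fun k => et ⟨d b i + k, hb k⟩
    have hg : StrictMono g := fun k l hkl => et.strictMono (by
      show d b i + (k : ℕ) < d b i + l
      have : (k : ℕ) < l := hkl
      omega)
    set A : Finset ℕ := Finset.univ.image g with hA
    have hAT : A ⊆ T := by
      intro x hx
      obtain ⟨k, -, rfl⟩ := Finset.mem_image.mp hx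
      exact T.orderEmbOfFin_mem hTc _
    have hAc : A.card = L := by
      rw [hA, Finset.card_image_of_injective _ hg.injective, Finset.card_univ, Fintype.card_fin]
    have hrank : ∀ k : Fin L, (A.filter (fun y => y < g k)).card = k := by
      intro k
      rw [hA, Finset.filter_image]
      have : (Finset.univ.filter fun l : Fin L => g l < g k) = Finset.Iio k := by
        ext l
        simp [hg.lt_iff_lt]
      rw [this, Finset.card_image_of_injective _ hg.injective, Fin.card_Iio]
    have hpt : place e (sh (d b i) (v i)) = pt A i := by
      simp only [place, pt]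
      congr 1
      funext x
      by_cases hx : ∃ s, e s = x
      · obtain ⟨s, rfl⟩ := hx
        rw [he.injective.extend_apply]
        by_cases hs : d b i ≤ (s : ℕ) ∧ (s : ℕ) < d b i + L
        · have hgs : g ⟨(s : ℕ) - d b i, by omega⟩ = et s := by
            show et _ = et s
            congr 1
            apply Fin.ext
            show d b i + ((s : ℕ) - d b i) = s
            omega
          have hmem : ((e s : Fin N) : ℕ) ∈ A := by
            rw [hA]
            exact Finset.mem_image.mpr ⟨_, Finset.mem_univ _, hgs⟩
          rw [if_pos hmem]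
          show sh (d b i) (v i) s = v i (A.filter fun y => y < et s).card
          rw [← hgs, hrank, sh, if_pos hs.1]
        · have hmem : ((e s : Fin N) : ℕ) ∉ A := by
            rw [hA]
            intro h
            obtain ⟨k, -, hk⟩ := Finset.mem_image.mp h
            have : (⟨d b i + k, hb k⟩ : Fin M) = s := et.injective hk
            have : d b i + (k : ℕ) = s := congrArg Fin.val this
            omega
          rw [if_neg hmem]
          show sh (d b i) (v i) s = 0
          unfold sh
          split_ifs with h
          · exact hv i _ (by omega)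
          · rfl
      · rw [Function.extend_apply' _ _ _ hx]
        have hmem : (x : ℕ) ∉ A := by
          rw [hA]
          intro h
          obtain ⟨k, -, hk⟩ := Finset.mem_image.mp h
          exact hx ⟨⟨d b i + k, hb k⟩, Fin.ext hk⟩
        rw [if_neg hmem]
        rfl
    rw [hpt]
    exact congrFun (hcol A hAT hAc) i

end Vale.Agent.P058
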