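import Vale.Agent.P058.Block

/-!
A truncated cosine sequence makes the deviation of the block small compared with its gain.
-/

namespace Vale.Agent.P058

open Real

theorem sum_sin_sq_block (m : ℕ) (hm : 0 < m) (s0 t : ℕ) :
    ∑ k ∈ Finset.range (t * (2 * m)),
      sin (((s0 + k : ℕ) : ℝ) * (π / ((2 * m : ℕ) : ℝ))) ^ 2 = (t : ℝ) * m := by
  induction t generalizing s0 with
  | zero => simp
  | succ t ih =>
    have hm' : (m : ℝ) ≠ 0 := Nat.cast_ne_zero.mpr hm.ne'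
    have e : (t + 1) * (2 * m) = m + m + t * (2 * m) := by ring
    rw [e, Finset.sum_range_add, Finset.sum_range_add, ← Finset.sum_add_distrib]
    have h1 : ∀ k ∈ Finset.range m,
        sin (((s0 + k : ℕ) : ℝ) * (π / ((2 * m : ℕ) : ℝ))) ^ 2
          + sin (((s0 + (m + k) : ℕ) : ℝ) * (π / ((2 * m : ℕ) : ℝ))) ^ 2 = 1 := by
      intro k _
      have : ((s0 + (m + k) : ℕ) : ℝ) * (π / ((2 * m : ℕ) : ℝ))
          = ((s0 + k : ℕ) : ℝ) * (π / ((2 * m : ℕ) : ℝ)) + π / 2 := by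
        push_cast
        field_simp
        ring
      rw [this, sin_add_pi_div_two, sin_sq_add_cos_sq]
    rw [Finset.sum_congr rfl h1]
    have h2 : ∀ k ∈ Finset.range (t * (2 * m)),
        sin (((s0 + (m + m + k) : ℕ) : ℝ) * (π / ((2 * m : ℕ) : ℝ))) ^ 2
          = sin ((((s0 + (m + m)) + k : ℕ) : ℝ) * (π / ((2 * m : ℕ) : ℝ))) ^ 2 := by
      intro k _
      rw [Nat.add_assoc s0 (m + m) k]
    rw [Finset.sum_congr rfl h2, ih (s0 + (m + m))]
    simp
    ring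

/-- The truncated cosine sequence of frequency `θ`. -/
noncomputable def cosSeq (LH : ℕ) (θ : ℝ) : ℕ → ℝ := fun k => if k < LH then cos (k * θ) else 0

theorem abs_sh_cosSeq (LH : ℕ) (θ : ℝ) (d s : ℕ) : |sh d (cosSeq LH θ) s| ≤ 1 := by
  simp only [sh, cosSeq]
  split_ifs <;> first | exact abs_cos_le_one _ | simp

theorem sh_cosSeq (LH : ℕ) (θ : ℝ) {d s : ℕ} (h1 : d ≤ s) (h2 : s < LH) :
    sh d (cosSeq LH θ) s = cos (s * θ - d * θ) := by
  simp only [sh, cosSeq, if_pos h1, if_pos (show s - d < LH by omega)]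
  rw [Nat.cast_sub h1]
  ring_nf

theorem devW_le (LH n d2 d3 : ℕ) (θ : ℝ) (s : ℕ) :
    devW n d2 d3 (cosSeq LH θ) s ^ 2 ≤ 16 := by
  obtain ⟨a1, b1⟩ := abs_le.mp (abs_sh_cosSeq LH θ d2 s)
  obtain ⟨a2, b2⟩ := abs_le.mp (abs_sh_cosSeq LH θ d3 s)
  obtain ⟨a3, b3⟩ := abs_le.mp (abs_sh_cosSeq LH θ 0 s)
  obtain ⟨a4, b4⟩ := abs_le.mp (abs_sh_cosSeq LH θ n s)
  rw [sh_zero] at a3 b3
  have hp := kp_pos
  have hp' := kp_lt_one
  have u1 := mul_le_mul_of_nonneg_left a3 (by linarith : (0 : ℝ) ≤ 1 + kp)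
  have u2 := mul_le_mul_of_nonneg_left b3 (by linarith : (0 : ℝ) ≤ 1 + kp)
  have u3 := mul_le_mul_of_nonneg_left a4 (by linarith : (0 : ℝ) ≤ 1 - kp)
  have u4 := mul_le_mul_of_nonneg_left b4 (by linarith : (0 : ℝ) ≤ 1 - kp)
  simp only [devW, Pi.add_apply, Pi.sub_apply, Pi.smul_apply, smul_eq_mul]
  rw [show (16 : ℝ) = 4 ^ 2 by norm_num]
  exact sq_le_sq' (by linarith) (by linarith)

theorem devW_interior (LH n d2 : ℕ) (θ : ℝ) (hd : d2 ≤ n) (hnθ : (n : ℝ) * θ = π)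
    (hcos : |cos (d2 * θ) - kp| ≤ θ) {s : ℕ} (h1 : 2 * n ≤ s) (h2 : s < LH) :
    devW n d2 (2 * n - d2) (cosSeq LH θ) s ^ 2 ≤ 4 * θ ^ 2 := by
  have e0 : cosSeq LH θ s = cos (s * θ) := by simp [cosSeq, h2]
  have hd3 : ((2 * n - d2 : ℕ) : ℝ) = 2 * n - d2 := by
    rw [Nat.cast_sub (by omega)]; push_cast; ring
  have e : devW n d2 (2 * n - d2) (cosSeq LH θ) s
      = 2 * (cos (d2 * θ) - kp) * cos (s * θ) := by
    simp only [devW, Pi.add_apply, Pi.sub_apply, Pi.smul_apply, smul_eq_mul]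
    rw [sh_cosSeq LH θ (show n ≤ s by omega) h2, sh_cosSeq LH θ (show d2 ≤ s by omega) h2,
      sh_cosSeq LH θ (show 2 * n - d2 ≤ s by omega) h2, e0, hd3,
      show (s : ℝ) * θ - (2 * n - d2) * θ = s * θ + d2 * θ - 2 * π by rw [← hnθ]; ring,
      hnθ, cos_sub_two_pi, cos_sub_pi, cos_sub, cos_add]
    ring
  rw [e, mul_pow, mul_pow]
  obtain ⟨a, b⟩ := abs_le.mp hcos
  have h3 : (cos (d2 * θ) - kp) ^ 2 ≤ θ ^ 2 := sq_le_sq' a b
  have := mul_le_mul h3 (cos_sq_le_one ((s : ℝ) * θ)) (sq_nonneg _) (sq_nonneg _)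
  linarith

theorem gain_interior (LH n d2 : ℕ) (θ : ℝ) (hd : d2 ≤ n) (hnθ : (n : ℝ) * θ = π)
    {s : ℕ} (h1 : 3 * n ≤ s) (h2 : s < LH) :
    (coreV d2 (2 * n - d2) (cosSeq LH θ) - sh n (coreV d2 (2 * n - d2) (cosSeq LH θ))) s ^ 2
      = 16 * sin (d2 * θ) ^ 2 * sin (s * θ) ^ 2 := by
  have hd3 : ((2 * n - d2 : ℕ) : ℝ) = 2 * n - d2 := by
    rw [Nat.cast_sub (by omega)]; push_cast; ring
  simp only [coreV, sh_sub, sh_sh, Pi.sub_apply]
  rw [sh_cosSeq LH θ (show d2 ≤ s by omega) h2,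
    sh_cosSeq LH θ (show 2 * n - d2 ≤ s by omega) h2,
    sh_cosSeq LH θ (show n + d2 ≤ s by omega) h2,
    sh_cosSeq LH θ (show n + (2 * n - d2) ≤ s by omega) h2, Nat.cast_add, Nat.cast_add, hd3,
    show (s : ℝ) * θ - (2 * n - d2) * θ = s * θ + d2 * θ - 2 * π by rw [← hnθ]; ring,
    show (s : ℝ) * θ - (n + (2 * n - d2)) * θ = s * θ + d2 * θ - π - 2 * π by
      rw [← hnθ]; ring,
    show (s : ℝ) * θ - (n + d2) * θ = s * θ - d2 * θ - π by rw [← hnθ]; ring,
    cos_sub_two_pi, cos_sub_two_pi, cos_sub_pi, cos_sub_pi, cos_sub, cos_add]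
  ring

theorem ratio_bound (ε θ Q w e S n m M : ℝ) (hε : 0 < ε) (hnm : n = 2 * m) (hm : 40 ≤ m)
    (hnθ : n * θ = π) (hQ : 1 / 2 ≤ Q) (hS : 1 / 2 ≤ S) (hM : M ≤ 8 * n ^ 3)
    (hmε : 2000 / ε < m) (hw : w ≤ 4 * θ ^ 2 * M + 96 * n)
    (he : 16 * S * (n * n * m) ≤ e) : 4 * w / (Q * e) ≤ ε := by
  have hn : 1 ≤ n := by linarith
  have hnnm : 0 < n * n * m := by positivity
  have h1 : 4 * θ ^ 2 * M ≤ 4 * θ ^ 2 * (8 * n ^ 3) :=
    mul_le_mul_of_nonneg_left hM (by positivity)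
  have e1 : 4 * θ ^ 2 * (8 * n ^ 3) = 32 * π ^ 2 * n := by rw [← hnθ]; ring
  have hpi : π ^ 2 ≤ 4 ^ 2 := pow_le_pow_left₀ pi_pos.le pi_le_four 2
  have h2 : 32 * π ^ 2 * n ≤ 512 * n := by
    have := mul_le_mul_of_nonneg_right hpi (by linarith : (0 : ℝ) ≤ n)
    linarith
  have h3 : 8 * (n * n * m) ≤ e := by
    have := mul_le_mul_of_nonneg_right hS hnnm.le
    linarith
  have h4 : 4 * (n * n * m) ≤ Q * e := by
    have := mul_le_mul hQ h3 (by linarith) (by linarith)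
    linarith
  rw [div_le_iff₀ (by linarith)]
  rw [div_lt_iff₀ hε] at hmε
  have h5 : 2000 * n ≤ m * ε * n := mul_le_mul_of_nonneg_right hmε.le (by linarith)
  have h6 : m * ε * n * 1 ≤ m * ε * n * n := mul_le_mul_of_nonneg_left hn (by positivity)
  have h7 := mul_le_mul_of_nonneg_left h4 hε.le
  nlinarith

/-- `Flex` links between the scales `c` and `c + 1` exist with `c` arbitrarily small. -/
theorem link_small (ε : ℝ) (hε : 0 < ε) :
    ∃ c : ℝ, 0 ≤ c ∧ c ≤ ε ∧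
      Flex (fun (b : Bool) (i j : Fin 4) => (c + if b then 1 else 0) * kD i j) := by
  have hp0 := kp_pos
  have hp1 : kp ≤ 0.42 := by
    have : Real.sqrt 2 ≤ 1.42 := Real.sqrt_le_iff.mpr ⟨by norm_num, by norm_num⟩
    unfold kp; linarith
  have hq2 : 1 / 2 ≤ kq ^ 2 := by rw [kq_sq]; nlinarith
  obtain ⟨m, hm⟩ := exists_nat_gt (max 40 (2000 / ε))
  obtain ⟨hm40, hmε⟩ := max_lt_iff.mp hm
  have hm0 : 0 < m := by
    have : (0 : ℝ) < m := by linarith
    exact_mod_cast this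
  set n : ℕ := 2 * m with hn
  have hnm : (n : ℝ) = 2 * m := by rw [hn]; push_cast; rfl
  have hn0 : (0 : ℝ) < n := by rw [hnm]; linarith
  set θ : ℝ := π / (n : ℝ) with hθ
  have hθ0 : 0 < θ := div_pos pi_pos hn0
  have hθ1 : θ ≤ 1 / 20 := by
    rw [hθ, div_le_iff₀ hn0, hnm]
    linarith [pi_le_four]
  have hnθ : (n : ℝ) * θ = π := by rw [hθ]; field_simp
  set d2 : ℕ := ⌊arccos kp / θ⌋₊ with hd2
  have hα0 : 0 ≤ arccos kp / θ := div_nonneg (arccos_nonneg _) hθ0.le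
  have hd2le : d2 ≤ n := by
    refine Nat.floor_le_of_le ?_
    rw [div_le_iff₀ hθ0, hnθ]
    exact arccos_le_pi _
  have hcos : |cos (d2 * θ) - kp| ≤ θ := by
    have h1 : |(d2 : ℝ) * θ - arccos kp| ≤ θ := by
      have a1 := Nat.floor_le hα0
      have a2 := Nat.lt_floor_add_one (arccos kp / θ)
      rw [← hd2] at a1 a2
      rw [le_div_iff₀ hθ0] at a1
      rw [div_lt_iff₀ hθ0] at a2
      rw [abs_le]
      constructor <;> nlinarith
    calc |cos (d2 * θ) - kp| = |cos (d2 * θ) - cos (arccos kp)| := by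
          rw [cos_arccos (by linarith) (by linarith)]
      _ ≤ |(d2 : ℝ) * θ - arccos kp| := abs_cos_sub_cos_le _ _
      _ ≤ θ := h1
  set S : ℝ := sin (d2 * θ) ^ 2 with hS
  have hS2 : 1 / 2 ≤ S := by
    have := abs_le.mp hcos
    rw [hS, sin_sq]
    nlinarith
  set LH : ℕ := 3 * n + n * n * n with hLH
  set H : ℕ → ℝ := cosSeq LH θ with hH
  set d3 : ℕ := 2 * n - d2 with hd3
  set M : ℕ := 2 * n + 2 * n + LH with hM
  have hWv : ∀ s, 2 * n ≤ s → s < LH → devW n d2 d3 H s ^ 2 ≤ 4 * θ ^ 2 :=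
    fun s h1 h2 => devW_interior LH n d2 θ hd2le hnθ hcos h1 h2
  have hWb : ∀ s, devW n d2 d3 H s ^ 2 ≤ 16 := fun s => devW_le LH n d2 d3 θ s
  have hEv : ∀ s, 3 * n ≤ s → s < LH →
      (coreV d2 d3 H - sh n (coreV d2 d3 H)) s ^ 2 = 16 * S * sin (s * θ) ^ 2 :=
    fun s h1 h2 => gain_interior LH n d2 θ hd2le hnθ h1 h2
  set w2 := ‖vec M (devW n d2 d3 H)‖ ^ 2 with hw2
  set e2 := ‖vec M (coreV d2 d3 H - sh n (coreV d2 d3 H))‖ ^ 2 with he2
  have hn1 : (1 : ℝ) ≤ n := by rw [hnm]; linarith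
  have hw : w2 ≤ 4 * θ ^ 2 * M + 96 * n := by
    rw [hw2, norm_vec_sq]
    have hb : ∀ s ∈ Finset.range M, devW n d2 d3 H s ^ 2
        ≤ 4 * θ ^ 2 + ((if s < 2 * n then 16 else 0) + if LH ≤ s then 16 else 0) := by
      intro s _
      have := hWb s
      have hpos : (0 : ℝ) ≤ 4 * θ ^ 2 := by positivity
      split_ifs with h1 h2 h2
      · linarith
      · linarith
      · linarith
      · linarith [hWv s (by omega) (by omega)]
    refine (Finset.sum_le_sum hb).trans ?_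
    rw [Finset.sum_add_distrib, Finset.sum_add_distrib, Finset.sum_const, Finset.card_range,
      ← Finset.sum_filter, ← Finset.sum_filter, Finset.sum_const, Finset.sum_const]
    have c1 : ((Finset.range M).filter fun s => s < 2 * n).card ≤ 2 * n := by
      refine (Finset.card_le_card (t := Finset.range (2 * n)) ?_).trans (by simp)
      intro s hs
      simp only [Finset.mem_filter, Finset.mem_range] at hs ⊢
      omega
    have c2 : ((Finset.range M).filter fun s => LH ≤ s).card ≤ 4 * n := by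
      refine (Finset.card_le_card (t := Finset.Ico LH M) ?_).trans (by simp [hM]; omega)
      intro s hs
      simp only [Finset.mem_filter, Finset.mem_range, Finset.mem_Ico] at hs ⊢
      omega
    have c1' : (((Finset.range M).filter fun s => s < 2 * n).card : ℝ) ≤ 2 * n := by
      exact_mod_cast c1
    have c2' : (((Finset.range M).filter fun s => LH ≤ s).card : ℝ) ≤ 4 * n := by
      exact_mod_cast c2
    simp only [nsmul_eq_mul]
    linarith
  have he : 16 * S * ((n : ℝ) * n * m) ≤ e2 := by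
    rw [he2, norm_vec_sq]
    have hsub : Finset.Ico (3 * n) LH ⊆ Finset.range M := by
      intro s hs
      simp only [Finset.mem_Ico, Finset.mem_range] at hs ⊢
      omega
    refine le_trans (le_of_eq ?_)
      (Finset.sum_le_sum_of_subset_of_nonneg hsub fun s _ _ => sq_nonneg _)
    rw [Finset.sum_Ico_eq_sum_range,
      show LH - 3 * n = n * n * (2 * m) by rw [hLH, ← hn]; omega,
      Finset.sum_congr rfl (fun k hk => hEv (3 * n + k) (by omega) (by
        have := Finset.mem_range.mp hk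
        rw [hLH]
        have : n * n * n = n * n * (2 * m) := by rw [hn]
        omega)),
      ← Finset.mul_sum]
    have hb := sum_sin_sq_block m hm0 (3 * n) (n * n)
    rw [← hn] at hb ⊢
    rw [hθ, hb]
    push_cast
    ring
  have hepos : 0 < e2 := lt_of_lt_of_le (by positivity) he
  refine ⟨4 * w2 / (kq ^ 2 * e2), by positivity, ?_, link_of_sequence n d2 d3 (2 * n) LH
    (by omega) (by omega) (by omega) H (fun k hk => by simp [hH, cosSeq, show ¬ k < LH by omega])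
    M le_rfl hepos⟩
  exact ratio_bound ε θ (kq ^ 2) w2 e2 S n m M hε hnm (by linarith) hnθ hq2 hS2
    (by
      rw [hM, hLH]
      push_cast
      nlinarith [mul_le_mul hn1 hn1 zero_le_one (by linarith : (0 : ℝ) ≤ n)]) hmε hw he

end Vale.Agent.P058
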